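import Crest.Agent.X212.Crt72.Lf
import Crest.Agent.X212.Nk89.Geo

/-!
# X212 / Ixz30 (helper30): the leaf IX-CHZ, charts of the cylinder
-/

set_option autoImplicit false
set_option linter.unusedSectionVars false
noncomputable section
open scoped Manifold ContDiff Topology InnerProductSpace
open MeasureTheory Set Function Filter

namespace Crest.Agent.X212.Ixz30
open An M Cyf70 Mod61 Map77 Nk89 Nd18 Crt72

variable {κ lam : Type} [Fintype κ] [Fintype lam] {Y : Mf 3} [CompactSpace Y.M]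
  {D : YD Y.I Y.M κ lam} {δ : ℝ} {O' : Set (Y.M × ℝ)} {β : YC Y.M κ lam} (h : D.Adm β)
  (h0 : ∀ x ∉ O', β.Φ x.1 = 0)

theorem W_refZ (t : T0) : (refZ T0 δ h h0).W t 0 = fun a x => β.W a x.1 :=
  funext fun a => funext fun x => by
    have : ∑ b, D.B.P a b x • β.W b x.1 = β.W a x.1 := h.adm.conn.cc.proj a x
    simpa [Ref.W, Ref.A, Md.addC, Mod61.Fam.W0, famZ, wtF, cst] using this

theorem cfg_refZ : (pt0 (refZ T0 δ h h0) 0 (t := 0) trivial).cfg = cy β := by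
  show Cfg.mk _ ((refZ T0 δ h h0).W 0 0) ((refZ T0 δ h h0).Φ0 + 0) 0 = _
  rw [W_refZ, add_zero, Subsingleton.elim (0 : EuclideanSpace ℂ (Fin 0)) β.z]
  rfl

theorem sl_refZ (o : Bool) (s : ℝ) (t : T0) :
    (endZ T0 Y D δ O' o).sl (refZ T0 δ h h0) s t = β := by
  rw [End.sl]
  simp only [W_refZ, Subsingleton.elim (0 : EuclideanSpace ℂ (Fin 0)) β.z]
  rfl

theorem O'_eq (f o : Bool) : (endZ T0 Y D δ (spO f univ) o).O' 1 = spO f univ := by
  cases f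
  · exact eq_empty_of_forall_notMem fun x hx => @hx (x.1, (endZ T0 Y D δ ∅ o).sg * 2)
      ⟨trivial, one_lt_two.trans_eq (End.sg_sg (endZ T0 Y D δ ∅ o) 2).symm⟩
  · exact eq_univ_of_forall fun _ => subset_univ _

theorem clopen_spO {X : Type} [TopologicalSpace X] (f : Bool) : IsClopen (spO f (univ : Set X)) := by
  cases f
  exacts [isClopen_empty, isClopen_univ]

theorem NE_le {N : Type} [NormedAddCommGroup N] [NormedSpace ℝ N] {sg a b : ℝ} {k : ℕ}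
    {u v : Y.M × ℝ → N} (e : ∀ x, max a b < sg * x.2 → u x = v x) :
    NE D δ sg (max a b) k u ≤ NE D δ sg a k v := by
  have o : IsOpen {x : Y.M × ℝ | max a b < sg * x.2} := isOpen_lt continuous_const (by fun_prop)
  exact (Gl67.N_congr o.measurableSet fun x hx => eventually_of_mem (o.mem_nhds hx) e).trans_le
    (Gl67.N_mono fun x hx => (le_max_left a b).trans_lt hx)

theorem loc_of {k : ℕ} {e e' : PtX (Y.M × ℝ) (Option κ) lam 0 0 0} {sg : ℝ} {m : Md Y.M (Option κ) lam}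
    {W W' : m.Cn} {Φ : Y.M → m.V} {O'' : Set (Y.M × ℝ)} {h : D.Adm ⟨m, W, Φ, 0⟩}
    {h0 : ∀ x ∉ O', Φ x.1 = 0} (h' : D.Adm ⟨m, W', Φ, 0⟩) (h0' : ∀ x ∉ O'', Φ x.1 = 0)
    (e1 : W' = W) (e2 : O'' = O') (L : CylOK (δ := δ) h h0 k e') (hs : sg = 1 ∨ sg = -1)
    (he : ∀ c (x : Y.M × ℝ), 2 ≤ sg * x.2 → e.D c x = e'.D c x ∧ e.C c x = e'.C c x) :
    CylOK (δ := δ) h' h0' k e' ∧ ∀ b ρ : ℝ, 1 ≤ b → ∀ ε > 0, ∃ a, ∀ (y : Pnt (refZ T0 δ h h0) 0)
      (y' : Pnt (refZ T0 δ h' h0') 0), y.t = 0 → ‖y.pt k‖ ≤ ρ → ‖y'.pt k‖ ≤ ρ →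
      (∀ x, b < sg * x.2 → y.α x = y'.α x ∧ y.φ x = y'.φ x) →
      NE D δ sg a k (fun x => vD (fun _ => e) y x - vD (fun _ => e') y' x) ≤ ε ∧
      NE D δ sg a k (fun x => vC (fun _ => e) y x - vC (fun _ => e') y' x) ≤ ε := by
  subst e1 e2
  refine ⟨L, fun b ρ _ ε hε => ?_⟩
  obtain ⟨a, ha⟩ := L.loc sg hs b ρ ε hε
  refine ⟨max a 2, fun y y' _ h1 h2 h3 => (ha y y' h1 h2 h3).imp (NE_le (fun x hx => ?_)).trans
    (NE_le fun x hx => ?_).trans⟩ <;> have k := he y.cfg x ((le_max_right _ _).trans hx.le)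
  · exact congrArg (· - _) (by simp only [vD, indicator, k.1])
  · exact congrArg (· - _) (by simp only [vC, indicator, k.2])

variable (κ lam) in
theorem chz (k : ℕ) : ChzStmt κ lam k := by
  obtain ⟨δ₀, p0, hs⟩ := exists_sml
  refine ⟨δ₀, p0, fun δ hδ Y _ D N f β h h0 e d hD hY A H I => ?_⟩
  obtain ⟨m, W, Φ, z⟩ := β
  obtain rfl : z = 0 := Subsingleton.elim _ _
  let g : (zB D N).GR (spO f univ) δ :=
    { T := T0
      𝔉 := famZ T0 D δ (spO f univ)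
      X := endsZ T0 hD hδ.1 (clopen_spO f) (hs δ (abs_le.2 ⟨by linarith [hδ.1], hδ.2.le⟩))
      t := 0
      ht := trivial
      f := (Equiv.subtypeUnivEquiv fun _ => subset_univ _).symm
      K := fun _ => D.nk
      hB := rfl
      hG := rfl
      hO := rfl
      hO' := rfl
      hP := fun _ => rfl
      hψ := fun _ => ⟨0, fun _ _ => rfl⟩ }
  refine ⟨g, refZ T0 δ h h0, 1, 0, 0, 0, fun _ => e, ⟨⟨le_rfl, fun a => ⟨fun t _ s _ =>
    (sl_refZ h h0 a s t).trans (sl_refZ h h0 a _ t).symm, fun t _ y =>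
      (congrFun (congrFun (W_refZ h h0 t) none) _).trans (h.tmp _)⟩⟩, A, fun a h' h0' => ?_⟩, ?_, I⟩
  · exact loc_of h' h0' (funext₂ fun b y => congrFun (congrFun (W_refZ h h0 0) b) _) (O'_eq f a)
      (H a).1 (End.sg_cases (endZ T0 Y D δ (spO f univ) a)) (H a).2
  · set β : YC Y.M κ lam := ⟨m, W, Φ, 0⟩
    have : (spO f univ).indicator (cy β).Φ = (cy β).Φ := indicator_eq_self.2 fun x hx =>
      by_contra fun k => hx (h0 x k)
    have e := Eqv71.ceq_refl hD.B hD.G (Eqv71.ad0 h.adm) isOpen_univ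
    have e1 : noz (pt0 (refZ T0 δ h h0) 0 g.ht).cfg = cy β := by
      rw [show (pt0 (refZ T0 δ h h0) 0 g.ht).cfg = cy β from cfg_refZ h h0, noz,
        Subsingleton.elim (0 : EuclideanSpace ℂ (Fin 0)) (cy β).z]
    rw [this, e1, Subsingleton.elim (0 : EuclideanSpace ℂ (Fin 0)) (cy β).z]
    exact ⟨_, _, e⟩

end Crest.Agent.X212.Ixz30
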