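import Crest.Agent.X212.Nk89.Dic
import Crest.Agent.X212.Mod61.Tr

/-!
# X212 / Ixz30 (helper30): the index is constant on equivalence classes of smooth points
-/

set_option autoImplicit false
set_option linter.unusedSectionVars false
noncomputable section
open scoped Manifold ContDiff Topology InnerProductSpace
open MeasureTheory Set Function Filter

namespace Crest.Agent.X212.Ixz30
open An An.Pre Sob92 Ell97 Prm93 Fred93 Mod61 Map77 Nk89 Eqv71

variable {E : Type} [NormedAddCommGroup E] [NormedSpace ℝ E] [FiniteDimensional ℝ E]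
  [MeasurableSpace E] [BorelSpace E]
  {HM : Type} [TopologicalSpace HM] {I : ModelWithCorners ℝ E HM} [I.Boundaryless]
  {M : Type} [TopologicalSpace M] [ChartedSpace HM M] [IsManifold I ∞ M]
  [MeasurableSpace M] [T2Space M] [BorelSpace M] [SecondCountableTopology M]
  {ι : Type} [Fintype ι] {lam : Type} [Fintype lam]
  {T : Type} [NormedAddCommGroup T] [NormedSpace ℝ T]

section gen
variable {V W V' W' : Type} [NormedAddCommGroup V] [InnerProductSpace ℝ V] [FiniteDimensional ℝ V]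
  [NormedAddCommGroup W] [InnerProductSpace ℝ W] [FiniteDimensional ℝ W]
  [NormedAddCommGroup V'] [InnerProductSpace ℝ V'] [FiniteDimensional ℝ V']
  [NormedAddCommGroup W'] [InnerProductSpace ℝ W'] [FiniteDimensional ℝ W']

/-- a bounded bundle isomorphism on Sobolev spaces -/
def mE {F : Pre I M ι} {p : M → V →L[ℝ] V} {p' : M → V' →L[ℝ] V'} {f : M → V →L[ℝ] V'}
    {f' : M → V' →L[ℝ] V} (hf : F.Cb f) (hf' : F.Cb f') (m : Maps p p' f) (m' : Maps p' p f')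
    (i : ∀ x v, p x v = v → f' x (f x v) = v) (i' : ∀ x v, p' x v = v → f x (f' x v) = v) (j : ℕ) :
    F.H j p ≃L[ℝ] F.H j p' :=
  .equivOfInverse (F.mulH j p p' f) (F.mulH j p' p f')
    (DFunLike.congr_fun (RepT_eq (RepT_comp (rep_mulH hf' m') (rep_mulH hf m)) Rep_id
      fun u => funext fun x => i x _ (u.2.2.2 x)))
    (DFunLike.congr_fun (RepT_eq (RepT_comp (rep_mulH hf m) (rep_mulH hf' m')) Rep_id
      fun u => funext fun x => i' x _ (u.2.2.2 x)))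

/-- formal adjoints are natural -/
theorem adj_nat {G : Fr I M ι} {A : Op M ι V W} {A' : Op M ι V' W'} {C C' : ℕ → ℝ}
    (h : A.Good G C) (h' : A'.Good G C') {a : M → V →L[ℝ] V'} {a' : M → V' →L[ℝ] V}
    (ta : ∀ x ξ η, ⟪a x ξ, η⟫_ℝ = ⟪ξ, a' x η⟫_ℝ) (sa : Sm I a') (ma : Maps A'.p A.p a')
    (v : Ell97.T I M W) (v' : Ell97.T I M W') (nat : ∀ (η : Sec I A'.p) x,
      ⟪A'.app G η.1 x, v'.1 x⟫_ℝ = ⟪A.app G (fun x => a' x (η.1 x)) x, v.1 x⟫_ℝ)
    (h1 : (A'.adj G).app G v'.1 ∈ Sec I A'.p)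
    (h2 : (fun x => a x ((A.adj G).app G v.1 x)) ∈ Sec I A'.p) :
    (A'.adj G).app G v'.1 = fun x => a x ((A.adj G).app G v.1 x) := by
  have h3 := sub_mem h1 h2
  have e1 := adj_ip h' ⟨_, h3⟩ v'
  have e2 := adj_ip h ⟨_, sa.clm_apply h3.1, h3.2.1.mono fun x hx k => hx (by simp [k]),
    fun x => ma x _ (h3.2.2 x)⟩ v
  have e3 := e1.symm.trans ((integral_congr_ae (.of_forall (nat ⟨_, h3⟩))).trans e2)
  generalize (A'.adj G).app G v'.1 = s at *
  generalize (A.adj G).app G v.1 = t at *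
  have := G.fin
  have := Sob92.openPos G.toPre
  have i : ∀ u ∈ Sec I A'.p, Integrable (fun x => ⟪(s - fun x => a x (t x)) x, u x⟫_ℝ) G.μ :=
    fun u hu => (h3.1.continuous.inner hu.1.continuous).integrable_of_hasCompactSupport
      (hu.2.1.mono fun x hx k => hx (by simp [k]))
  have e4 : ∫ x, ⟪(s - fun x => a x (t x)) x, (s - fun x => a x (t x)) x⟫_ℝ ∂G.μ = 0 := by
    refine (integral_congr_ae (.of_forall fun x => inner_sub_right _ _ _)).trans
      ((integral_sub (i _ h1) (i _ h2)).trans (sub_eq_zero.2 (e3.trans ?_)))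
    exact integral_congr_ae (.of_forall fun x =>
      (real_inner_comm _ _).trans ((ta _ _ _).symm.trans (real_inner_comm _ _)))
  rw [integral_eq_zero_iff_of_nonneg (fun x => real_inner_self_nonneg) (i _ h3),
    (h3.1.continuous.inner h3.1.continuous).ae_eq_iff_eq _ continuous_zero] at e4
  exact sub_eq_zero.1 (funext fun x => inner_self_eq_zero.1 (congrFun e4 x))

theorem maps_sm2 {p : M → V →L[ℝ] V} {p' : M → V' →L[ℝ] V'} {q : M → W →L[ℝ] W}
    {q' : M → W' →L[ℝ] W'} {f : M → V →L[ℝ] V'} {g : M → W →L[ℝ] W'} (hf : Maps p p' f)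
    (hg : Maps q q' g) : Maps (ps p q) (ps p' q') fun x => sm2 (f x) (g x) := fun x v hv =>
  ext2 (by simpa using hf x _ (maps_f2 x v hv)) (by simpa using hg x _ (maps_s2 x v hv))

variable {κ κ' : Type} [Fintype κ] [DecidableEq κ] [Fintype κ'] [DecidableEq κ']

theorem tr_sm2 {u : CL (Eu κ) (Eu κ')} {J : En κ} {J' : En κ'} (hJ : Skw J) (e : u ∘L J = J' ∘L u)
    (c : Circle) (v : Cf ι κ) (v' : Cf ι κ') :
    ⟪sm2 (Grp76.tp fun a => cj (trn u) ∘L Grp76.pj _ a) (csL J (c⁻¹ : Circle) ∘L trn u) v', v⟫_ℝ =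
      ⟪v', sm2 (Grp76.tp fun a => cj u ∘L Grp76.pj _ a) (csL J' c ∘L u) v⟫_ℝ := by
  rw [inner2, inner2, inner_fm (X := HS κ), inner_fm (X := HS κ')]
  simp only [f2_sm2, s2_sm2, Grp76.tp_apply, ContinuousLinearMap.comp_apply, Eqv71.inner_cj, trn_trn,
    Grp76.pj_apply]
  rw [← inner_trn' (csL J _), inner_trn, trn_csL hJ, csL_apply, csL_apply, map_cs e,
    Circle.coe_inv_eq_conj, Complex.conj_conj]

theorem raw_nat (G : Fr I M ι) {A : ι → M → En κ} {A' : ι → M → En κ'} {Φ : M → Eu κ}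
    {Φ' : M → Eu κ'} {u : M → CL (Eu κ) (Eu κ')} (su : Sm I u) {ξ : M → HS κ} (sξ : Sm I ξ) {x : M}
    (it : Itw I G.e A A' u x) (sk : ∀ a, Skw (A a x)) (sk' : ∀ a, Skw (A' a x))
    {L : CL (Eu κ) (Eu κ')} (hΦ : opL (cj (u x) (ξ x)) (Φ' x) = L (opL (ξ x) (Φ x))) :
    G.op (fun a x => σ0 (fun a b => G.P a b x) a) (fun x => l0 (base A' Φ' x))
      (fun x => cj (u x) (ξ x)) x = sm2 (Grp76.tp fun a => cj (u x) ∘L Grp76.pj _ a) L
        (G.op (fun a x => σ0 (fun a b => G.P a b x) a) (fun x => l0 (base A Φ x)) ξ x) := by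
  refine ext2 (fm_ext fun a => ?_) (by simp [Pre.op, σ0, fp_l0, hΦ])
  have e1 := DFunLike.congr_fun (it.cj (su x) sk sk' a) (ξ x)
  have e2 := D_app G.toPre a (fun x => sa_cj (su x)) sξ x
  simp only [Pre.op, map_add, map_sum, f2_i1, PiLp.add_apply, fa_l0, oa_base, σ0, f2_sm2,
    _root_.neg_apply, ContinuousLinearMap.comp_apply, map_neg, WithLp.ofLp_sum, Grp76.tp_apply,
    Finset.sum_apply, PiLp.neg_apply, ea_apply, Finset.sum_neg_distrib, sum_P_D, Grp76.pj_apply, e2,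
    _root_.add_apply] at e1 ⊢
  rw [← e1, ← map_sum, sum_P_D, Pre.D_def]
  abel

end gen

variable {𝔉 : Fam I M ι lam T} (h : 𝔉.OK) {o o' : Ref 𝔉} {r n m k : ℕ} {x : M}
  {w : M → CL o.m.V o'.m.V} {w' : M → CL o'.m.V o.m.V} {c : Circle}

/-- the action on the Lie algebra -/
abbrev aG (w : M → CL o.m.V o'.m.V) (x : M) : CL o.m.A o'.m.A := cj (𝔉.Om.indicator w x)

/-- the action on fields -/
abbrev aC (w : M → CL o.m.V o'.m.V) (c : Circle) (x : M) :
    CL (Cf ι (Fin o.m.N)) (Cf ι (Fin o'.m.N)) := sm2 (cF 𝔉 ι w x) (cS w c x)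

theorem ind_trn (w : M → CL o.m.V o'.m.V) (x : M) :
    𝔉.Om.indicator (fun x => trn (w x)) x = trn (𝔉.Om.indicator w x) := by
  by_cases hx : x ∈ 𝔉.Om <;> simp [hx]

theorem aG_inv (e : ∀ x ∈ 𝔉.Om, MX o o' x (w x)) (e' : ∀ x ∈ 𝔉.Om, w' x = trn (w x)) (x : M)
    (ξ : o.m.A) (hξ : o.Pg x ξ = ξ) : aG w' x (aG w x ξ) = ξ := by
  by_cases hx : x ∈ 𝔉.Om
  · simp only [aG, indicator_of_mem hx, e' x hx, (e x hx).trn_cj (mem_g o hξ)]
  · simp [ind_off hξ hx]

theorem tr_aC (e : MI o o' w) (x : M) (u : Cf ι (Fin o.m.N)) (u' : Cf ι (Fin o'.m.N)) :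
    ⟪aC (fun x => trn (w x)) c⁻¹ x u', u⟫_ℝ = ⟪u', aC w c x u⟫_ℝ := by
  simp only [aC, cF, cS, ind_trn]
  refine tr_sm2 o.ok.Jsk ?_ c u u'
  by_cases hx : x ∈ 𝔉.Om
  · rw [indicator_of_mem hx]; exact (e.me x hx).J
  · simp [hx]

theorem cb_aC (e : MI o o' w) : 𝔉.F0.Cb (aC w c) :=
  Cb_pr2 (Cb_comp (e.cF ι) (Cb_const _)) (Cb_comp (e.cS c) (Cb_const _))

include h

theorem maps_aC (e : MI o o' w) : Maps (bd o).pC (bd o').pC (aC w c) :=
  maps_sm2 (e.mF h fun x a b => 𝔉.B.P a b x) (e.mP h c)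

theorem maps_aG (e : MI o o' w) : Maps o.Pg o'.Pg (aG w) := fun x ξ hξ => by
  by_cases hx : x ∈ 𝔉.Om
  · rw [aG, indicator_of_mem hx]
    exact Pg_of hx ((e.me x hx).cj_mem (BE.refl h.B x) o.ok o'.ok (mem_g o hξ))
  · simp [ind_off hξ hx]

variable {y : Pnt o r} {y' : Pnt o' r} (e : y.Eq y' w c) (ht : y'.t = y.t)
include e ht

/-- the infinitesimal gauge action is natural -/
theorem d0_nat {ξ : M → o.m.A} (hξ : ξ ∈ Sec I o.Pg) (x : M) :
    (Fs 𝔉 y.t).op (fun a x => σ0 ((bd o').Px x) a) (fun x => l0 (uy y' x)) (fun x => aG w x (ξ x)) x =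
      aC w c x ((Fs 𝔉 y.t).op (fun a x => σ0 ((bd o).Px x) a) (fun x => l0 (uy y x)) ξ x) := by
  have mi := e.mi h ht
  have k := raw_nat (Fs 𝔉 y.t) (A := o.W y.t y.α) (A' := o'.W y'.t y'.α) (Φ := o.Φ0 + y.φ)
    (Φ' := o'.Φ0 + y'.φ) (Cb.sm mi.cb) hξ.1 (x := x) (L := cS w c x) (fun a => ?_)
    ((y.ad0 h).conn.sk · x) ((y'.ad0 h).conn.sk · x) ?_
  · rw [(adj_rem h).P _ y.ht] at k
    exact k
  all_goals by_cases hx : x ∈ 𝔉.Om
  · have h1 := sub_eq_zero.1 (e.W x hx a)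
    have h2 : ∑ b, 𝔉.B.P b a x • o'.W y'.t y'.α b x = o'.W y'.t y'.α a x := by
      simp only [fun b => (h.B.pr x).symm b a]
      exact (y'.ad0 h).conn.cc.proj a x
    rw [indicator_of_mem hx, dv_congr (Eqv71.ind_ev h.Om.2 hx w), ← h2]
    exact h1
  · rw [indicator_of_notMem hx, dv_congr (ind_ev0 h.Om.1 hx w)]
    simp [dv_zero]
  · have m := mem_g o (hξ.2.2 x)
    rw [cS, indicator_of_mem hx, Pi.add_apply, e.Φ' h x,
      map_cs (Wz78.g_J ((mi.me x hx).cj_mem (BE.refl h.B x) o.ok o'.ok m)).symm]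
    exact congrArg _ (DFunLike.congr_fun ((mi.me x hx).cj_comp m) _)
  · simp [cS, hx, cj_apply]

/-- the gauge row is natural -/
theorem row_nat : (bd o').RR 𝔉.F0.toPre (Fs 𝔉 y.t) k (uy y') ∘L 𝔉.F0.mulH (k + 1) _ _ (aC w c) =
    𝔉.F0.mulH k _ _ (aG w) ∘L (bd o).RR 𝔉.F0.toPre (Fs 𝔉 y.t) k (uy y) := by
  have mi := e.mi h ht
  have H := (adj_rem h).hy o y.ht
  have H' := (adj_rem h).hy o' y.ht
  have r := rep_RR H k (cb_uy h y)
  have r1 := RepT_comp (rep_RR H' k (cb_uy h y')) (rep_mulH (k := k + 1) (cb_aC (c := c) mi)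
    (maps_aC h mi))
  have r2 := RepT_comp (rep_mulH (k := k) (Cb_cj mi.cb) (maps_aG h mi)) r
  refine RepT_eq r1 r2 fun v => adj_nat (H.good (H.nc_d0 (cb_uy h y))).choose_spec.2
    (H'.good (H'.nc_d0 (cb_uy h y'))).choose_spec.2 (a' := aG fun x => trn (w x))
    (fun x ξ η => by simp only [aG, ind_trn, Eqv71.inner_cj]) (Cb.sm (Cb_cj (mi.symm h).cb))
    (maps_aG h (mi.symm h)) (toT _ v) (mul _ (Cb.sm (cb_aC (c := c) mi)) (toT _ v))
    (fun η x => ?_) (RepT_mem r1 v) (RepT_mem r2 v)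
  have k := d0_nat h (e.symm h ht) ht.symm η.2 x
  rw [ht] at k
  refine (congrArg (⟪·, _⟫_ℝ) (op_cut _ (Cb.sm H'.cg) η.2.1 η.2.2.2 x)).trans (Eq.trans ?_
    (congrArg (⟪·, _⟫_ℝ) (op_cut _ (Cb.sm H.cg) ((Cb.sm (Cb_cj (mi.symm h).cb)).clm_apply η.2.1)
      (fun x => maps_aG h (mi.symm h) x _ (η.2.2.2 x)) x)).symm)
  refine (H'.prjC.symm x _ _).trans (Eq.trans ?_ (H.prjC.symm x _ _).symm)
  exact (congrArg _ (maps_aC h mi x _ (v.2.2.2 x))).trans ((tr_aC mi x _ _).symm.trans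
    (congrArg₂ _ k.symm (v.2.2.2 x).symm))

omit e ht

/-- the action on Sobolev forms -/
def eF (e : MI o o' w) {α : Type} [Fintype α] (S : M → α → α → ℝ) (j : ℕ) :
    𝔉.F0.H j (fun x => idx (S x) (o.Pg x)) ≃L[ℝ] 𝔉.F0.H j fun x => idx (S x) (o'.Pg x) :=
  have e' := e.symm h
  mE (e.cF α) (e'.cF α) (e.mF h S) (e'.mF h S)
    (fun x v hv => fm_ext fun a => by
      rw [cF_apply (e.mF h S x v hv), cF_apply hv, inv_g e.me (fun _ _ => rfl) hv])
    (fun x v hv => fm_ext fun a => by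
      rw [cF_apply (e'.mF h S x v hv), cF_apply hv, inv_g e'.me (fun _ _ => (trn_trn _).symm) hv]) j

/-- the action on Sobolev spinors -/
def eS (e : MI o o' w) (c : Circle) {p : M → En (Fin o.m.N)} {p' : M → En (Fin o'.m.N)}
    (m : Maps (𝔉.Om'.indicator p) (𝔉.Om'.indicator p') (cS w c))
    (m' : Maps (𝔉.Om'.indicator p') (𝔉.Om'.indicator p) (cS (fun x => trn (w x)) c⁻¹))
    (hp : ∀ x v, o.m.p x (p x v) = p x v) (hp' : ∀ x v, o'.m.p x (p' x v) = p' x v) (j : ℕ) :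
    𝔉.F0.H j (𝔉.Om'.indicator p) ≃L[ℝ] 𝔉.F0.H j (𝔉.Om'.indicator p') :=
  have e' := e.symm h
  mE (e.cS c) (e'.cS c⁻¹) m m'
    (fun x v hv => by
      rw [cS_apply h (m x v hv), cS_apply h hv, inv_s h e.me (fun _ _ => rfl) (hp x) hv])
    (fun x v hv => by
      have := inv_s h (c := c⁻¹) e'.me (fun _ _ => (trn_trn _).symm) (hp' x) hv
      rw [cS_apply h (m' x v hv), cS_apply h hv]
      rwa [inv_inv] at this) j

theorem sC_nat (e : MI o o' w) (c : Circle) (hk : 3 ≤ k) {t : T} (ht : t ∈ 𝔉.Q) (v : o.C r k) :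
    sC o' r k t (LC r k w c v) = 𝔉.F0.mulH (k + 1) _ _ (aC w c) (sC o r k t v) := by
  have h4 : 4 ≤ k + 1 := by omega
  refine val_injective h.sup h4 (funext fun x => ?_)
  rw [val_mulH h.sup h4 (cb_aC e) (maps_aC h e), sC, sC, ContinuousLinearMap.comp_apply,
    ContinuousLinearMap.comp_apply, val_SH h h4 ht, val_SH h h4 ht, val_jC h hk, val_jC h hk]
  refine ext2 (fm_ext fun s => ?_) ?_
  · have := fun a => cF_apply (w := w) (val_proj h.sup h4 v.1 x) a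
    simp only [cF, Grp76.tp_apply, ContinuousLinearMap.comp_apply, Grp76.pj_apply] at this
    simp [SC, e.LC_α h hk, cF, this]
  · simp [SC, e.LC_φ h hk, cS_apply h (val_proj h.sup h4 v.2.1 x)]

include e ht

theorem fderiv_nat [o.B0] [o'.B0] (hk : 4 ≤ k) {Al : (M → CL o.m.V o'.m.V) → Circle → Prop}
    {τ : T → PtX M ι lam r n m} (hn : NatP o o' Al τ) (al : Al w c) {f : o.C r k → o.Y n m k}
    {f' : o'.C r k → o'.Y n m k} (hf : RepF τ f) (hf' : RepF τ f') :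
    fderiv ℝ f' (y'.pt k) ∘L LC r k w c = LY n m k w c ∘L fderiv ℝ f (y.pt k) := by
  have mi := e.mi h ht
  have ac := mi.actC h (r := r) (k := k) (by omega) c
  have d : ∀ v, HasFDerivAt (fun v => y'.pt k + LC r k w c (v - y.pt k)) (LC r k w c) v := fun v =>
    ((LC r k w c).hasFDerivAt.comp v ((hasFDerivAt_id v).sub_const _)).const_add _
  have q : Set.EqOn (fun v => f' (y'.pt k + LC r k w c (v - y.pt k))) (fun v => LY n m k w c (f v))
      (o.U r k) := eqOn_U h (by omega) (hf'.1.continuousOn.comp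
        (fun v _ => (d v).continuousAt.continuousWithinAt) fun v hv => by
          show y'.t + (LC r k w c (v - y.pt k)).2.2.2 ∈ 𝔉.Q
          rw [ac.t, ht]
          exact (add_sub_cancel y.t v.2.2.2).symm ▸ hv)
    ((LY n m k w c).continuous.comp_continuousOn hf.1.continuousOn) fun z => by
      obtain ⟨z', h1, h2, h3⟩ := e.tr h ht mv_B0 z
      rw [← h3 k (by omega) _ ac]
      exact (mi.actY h hk c).rep h hk hn h1 al h2 (hf.2 z) (hf'.2 z')
  have U := (Map77.isOpen_U h).mem_nhds (pt_mem (k := k) y)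
  have d1 := ((hf.1.contDiffAt U).differentiableAt (by simp)).hasFDerivAt
  have d2 := ((hf'.1.contDiffAt ((Map77.isOpen_U h).mem_nhds (pt_mem (k := k) y'))).differentiableAt
    (by simp)).hasFDerivAt
  refine (HasFDerivAt.comp (g := f') _ (by rwa [sub_self, map_zero, add_zero]) (d (y.pt k))).unique
    (((LY n m k w c).hasFDerivAt.comp _ d1).congr_of_eventuallyEq (q.eventuallyEq_of_mem U))

/-- **the index is constant on equivalence classes** -/
theorem idx_eqv [o.B0] [o'.B0] (hk : 4 ≤ k) {Al : (M → CL o.m.V o'.m.V) → Circle → Prop}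
    {τ : T → PtX M ι lam r n m} (hn : NatP o o' Al τ) (al : Al w c) {f' : o'.C r k → o'.Y n m k}
    (hf' : RepF τ f') {d : ℤ} (H : Idx k τ y d) : Idx k τ y' d := by
  obtain ⟨f, hf, H⟩ := H
  have mi := e.mi h ht
  have mi' := mi.symm h
  let a : CF o k ≃L[ℝ] CF o' k := (eF h mi _ _).prodCongr
    (eS h mi c (mi.mP h c) (mi'.mP h _) (p_pp o.ok) (p_pp o'.ok) _)
  let b : (YF o k × 𝔉.F0.H k o.Pg) ≃L[ℝ] YF o' k × 𝔉.F0.H k o'.Pg :=
    ((eS h mi c (mi.mM h c) (mi'.mM h _) (p_pm o.ok) (p_pm o'.ok) _).prodCongr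
      (eF h mi _ _)).prodCongr (mE (Cb_cj mi.cb) (Cb_cj mi'.cb) (maps_aG h mi) (maps_aG h mi')
        (aG_inv mi.me fun _ _ => rfl) (aG_inv mi'.me fun _ _ => (trn_trn _).symm) k)
  refine ⟨f', hf', (H.conj a.symm b).congr fun v => ?_⟩
  obtain ⟨v, rfl⟩ := a.surjective v
  have e1 : inF o' r k (a v) = LC r k w c (inF o r k v) := by
    rw [LC_apply]
    exact Prod.ext rfl (Prod.ext rfl (Prod.ext (smul_zero _).symm rfl))
  have e2 := sC_nat h mi c (k := k) (by omega) y.ht (inF o r k v)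
  have e3 := DFunLike.congr_fun (fderiv_nat h e ht hk hn al hf hf') (inF o r k v)
  have e4 := DFunLike.congr_fun (row_nat h e ht (k := k)) (sC o r k y.t (inF o r k v))
  simp only [ContinuousLinearMap.comp_apply, ContinuousLinearEquiv.coe_coe, a.symm_apply_apply] at e3 e4 ⊢
  rw [← e1] at e3 e2
  rw [← e2] at e4
  refine Prod.ext ((congrArg (prF o' n m k) e3).trans ?_) ((congrArg (fun t =>
    (bd o').RR 𝔉.F0.toPre (Fs 𝔉 t) k (uy y') (sC o' r k t (inF o' r k (a v)))) ht).trans e4)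
  rw [LY_apply]
  rfl

end Crest.Agent.X212.Ixz30
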