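import Crest.Agent.X212.Ixz30.Chz
import Crest.Agent.X212.Ixz30.Eqv
import Crest.Agent.X212.Eqv71.Nk1

/-!
# X212 / Ixz30 (helper30): the leaf IX-NATZ
-/

set_option autoImplicit false
noncomputable section
open scoped Manifold ContDiff Topology
open Set

namespace Crest.Agent.X212.Ixz30
open An M Cyf70 Mod61 Map77 Nk89 Nd18 Crt72

variable {κ lam : Type} [Fintype κ] [Fintype lam]

/-- the equations on the cylinder are natural -/
theorem nat_eZ {X : XD κ lam} (hX : X.OK) {O' : Set (X.Y.M × ℝ)} :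
    NatOn X.D.B X.D.G univ O' (eZ X.N X.D) := fun c c' u ζ h h' h0 h0' e => by
  have := hX.con
  have a := Eqv71.natOn_eq0 (n := 0) (m := 0) hX.ok.B hX.ok.G isOpen_univ (subset_univ O')
    c c' u ζ h h' h0 h0' e
  have b := Eqv71.natOn_of_pnat0 hX.ok.B hX.ok.G isOpen_univ (subset_univ O')
    (τ := (⟨X.N.q1 X.D.nk, 0⟩ : PtX _ _ _ 0 0 0)) (Eqv71.q1_nat1 X.D.nk hX.ok.B hX.ok.G
      (Cht98.tame_cyl X.D.F X.Y.dim.le) isClopen_univ hX.nd) (fun _ _ _ _ _ => Subsingleton.elim _ _)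
    c c' u ζ h h' h0 h0' e
  refine ⟨fun x hx => (congrArg₂ (· - ·) (a.1 x hx) (b.1 x hx)).trans ?_, fun x hx s =>
    (congrArg₂ (· - ·) (a.2.1 x hx s) (b.2.1 x hx s)).trans (map_sub _ _ _).symm,
    finZeroElim, Subsingleton.elim _ _⟩
  rw [← Eqv71.csL_apply, ← Eqv71.csL_apply, ← map_sub, ← map_sub]
  rfl

variable (κ lam) in
/-- **IX-NATZ** -/
theorem natz {k : ℕ} (hk : 7 ≤ k) : Crt72.NatzStmt κ lam k :=
  fun X δ O' β β' h h0 h' h0' d hX hδ hO ⟨u, ζ, e⟩ _ A' H => by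
  have ok : (famZ T0 X.D δ O').OK := ok_famZ hX.ok X.Y.dim.le hδ.le
    (by rcases hO with rfl | rfl; exacts [isClopen_univ, isClopen_empty])
  obtain ⟨f, hf⟩ := (adj_rem ok).rp A' k hk
  obtain ⟨w, e'⟩ : ∃ w, (pt0 (refZ T0 δ h h0) 0 (t := 0) trivial).Eq
      (pt0 (refZ T0 δ h' h0') 0 (t := 0) trivial) w ζ := by
    have k : ∀ c c' : Cfg (X.Y.M × ℝ) (Option κ) lam 0, c = cy β → c' = cy β' →
        ∃ w, Mod61.EqOn X.D.B X.D.Z univ c c' w ζ := by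
      rintro _ _ rfl rfl; exact ⟨u, e⟩
    exact k _ _ (cfg_refZ h h0) (cfg_refZ h' h0')
  exact idx_eqv ok e' rfl (by omega)
    (Fam.Nat.natP ok (fun _ _ => nat_eZ hX) _ _ fun _ _ => True) trivial hf H

end Crest.Agent.X212.Ixz30
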