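import Crest.Agent.X212.Ixz30.Eqv
import Crest.Agent.X212.Eqv71.Nat

/-!
# X212 / Ixz30 (helper30): gauge naturality of the linearisations (moving base connections allowed)
-/

set_option autoImplicit false
set_option linter.unusedSectionVars false
noncomputable section
open scoped Manifold ContDiff Topology InnerProductSpace
open MeasureTheory Set Function Filter

namespace Crest.Agent.X212.Ixz30
open An An.Pre Sob92 Ell97 Prm93 Fred93 Mod61 Map77 Nk89 Eqv71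

variable {E : Type} [NormedAddCommGroup E] [NormedSpace ℝ E] [FiniteDimensional ℝ E]
  [MeasurableSpace E] [BorelSpace E]
  {HM : Type} [TopologicalSpace HM] {I : ModelWithCorners ℝ E HM} [I.Boundaryless]
  {M : Type} [TopologicalSpace M] [ChartedSpace HM M] [IsManifold I ∞ M]
  [MeasurableSpace M] [T2Space M] [BorelSpace M] [SecondCountableTopology M]
  {ι : Type} [Fintype ι] {lam : Type} [Fintype lam]
  {T : Type} [NormedAddCommGroup T] [NormedSpace ℝ T]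

section gen
variable {V W V' W' : Type} [NormedAddCommGroup V] [InnerProductSpace ℝ V] [FiniteDimensional ℝ V]
  [NormedAddCommGroup W] [InnerProductSpace ℝ W] [FiniteDimensional ℝ W]
  [NormedAddCommGroup V'] [InnerProductSpace ℝ V'] [FiniteDimensional ℝ V']
  [NormedAddCommGroup W'] [InnerProductSpace ℝ W'] [FiniteDimensional ℝ W'] {F : Pre I M ι}
  {p : M → V →L[ℝ] V} {p' : M → V' →L[ℝ] V'} {q : M → W →L[ℝ] W} {q' : M → W' →L[ℝ] W'} {j : ℕ}

/-- the sum of two isomorphisms -/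
def sumE (a : F.H j p ≃L[ℝ] F.H j p') (b : F.H j q ≃L[ℝ] F.H j q') :
    F.H j (ps p q) ≃L[ℝ] F.H j (ps p' q') :=
  (sumH F j p q).trans ((a.prodCongr b).trans (sumH F j p' q').symm)

theorem sumE_apply (a : F.H j p ≃L[ℝ] F.H j p') (b : F.H j q ≃L[ℝ] F.H j q') (u : F.H j p)
    (v : F.H j q) : sumE a b (iH1 F j p q u + iH2 F j p q v) =
      iH1 F j p' q' (a u) + iH2 F j p' q' (b v) := by simp [sumE]

end gen

variable {𝔉 : Fam I M ι lam T} (h : 𝔉.OK) {o o' : Ref 𝔉} {r n m k : ℕ}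
  {w : M → CL o.m.V o'.m.V} {c : Circle}

/-- the action on the Lie algebra -/
def eG (e : MI o o' w) (j : ℕ) : 𝔉.F0.H j o.Pg ≃L[ℝ] 𝔉.F0.H j o'.Pg :=
  mE (Cb_cj e.cb) (Cb_cj (e.symm h).cb) (maps_aG h e) (maps_aG h (e.symm h))
    (aG_inv e.me fun _ _ => rfl) (aG_inv (e.symm h).me fun _ _ => (trn_trn _).symm) j

/-- the action on fields -/
def eC (e : MI o o' w) (c : Circle) (j : ℕ) : 𝔉.F0.H j (bd o).pC ≃L[ℝ] 𝔉.F0.H j (bd o').pC :=
  sumE (eF h e _ j) (eS h e c (e.mP h c) ((e.symm h).mP h _) (p_pp o.ok) (p_pp o'.ok) j)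

/-- the action on equations -/
def eE (e : MI o o' w) (c : Circle) (j : ℕ) : 𝔉.F0.H j (bd o).pE ≃L[ℝ] 𝔉.F0.H j (bd o').pE :=
  sumE (eS h e c (e.mM h c) ((e.symm h).mM h _) (p_pm o.ok) (p_pm o'.ok) j) (eF h e _ j)

theorem sY_LY (e : MI o o' w) (v : o.Y n m k) :
    sY o' n m k (LY n m k w c v) = eE h e c k (sY o n m k v) := by
  have := sumE_apply (eS h e c (e.mM h c) ((e.symm h).mM h _) (p_pm o.ok) (p_pm o'.ok) k)
    (eF h e 𝔉.B.sd k) v.1 v.2.1
  rw [LY_apply]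
  exact this.symm

theorem eC_eq (e : MI o o' w) (hk : 4 ≤ k) (x : 𝔉.F0.H k (bd o).pC) :
    eC h e c k x = 𝔉.F0.mulH k _ _ (aC w c) x := by
  refine val_injective h.sup hk (funext fun z => ?_)
  rw [val_mulH h.sup hk (cb_aC e) (maps_aC h e), ← iH_add x]
  refine (congrArg (𝔉.F0.val _ _ · z) (sumE_apply _ _ _ _)).trans ?_
  simp only [val_add, Pi.add_apply, val_iH1 h.sup hk, val_iH2 h.sup hk]
  refine ext2 ?_ ?_ <;> simp only [map_add, f2_i1, f2_i2, s2_i1, s2_i2, add_zero, zero_add, f2_sm2,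
    s2_sm2, map_zero]
  exacts [val_mulH h.sup hk (e.cF ι) (e.mF h _) _ z, val_mulH h.sup hk (e.cS c) (e.mP h c) _ z]

variable {y : Pnt o r} {y' : Pnt o' r} (e : y.Eq y' w c) (ht : y'.t = y.t)
include h e ht

/-- derivatives in the field directions of natural maps -/
theorem dir_nat (hk : 3 ≤ k) {f : o.C r k → o.Y n m k} {f' : o'.C r k → o'.Y n m k}
    (hf : ContDiffOn ℝ ∞ f (o.U r k)) (hf' : ContDiffOn ℝ ∞ f' (o'.U r k))
    (H : ∀ (z : Pnt o r) (z' : Pnt o' r), z.t = y.t → z'.t = y.t → z.z = y.z → z'.z = y'.z →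
      z.Eq z' w c → f' (z'.pt k) - f' (y'.pt k) = LY n m k w c (f (z.pt k) - f (y.pt k)))
    (x : 𝔉.F0.H (k + 1) (bd o).pC) :
    fderiv ℝ f' (y'.pt k) (sC' o' r k y.t (eC h (e.mi h ht) c _ x)) =
      LY n m k w c (fderiv ℝ f (y.pt k) (sC' o r k y.t x)) := by
  have mi := e.mi h ht
  have d : ∀ {o₁ : Ref 𝔉} (y : Pnt o₁ r) {f : o₁.C r k → o₁.Y n m k}, ContDiffOn ℝ ∞ f (o₁.U r k) →
      ∀ (A : 𝔉.F0.H (k + 1) (bd o).pC →L[ℝ] o₁.C r k), (∀ x, (A x).2.2 = 0) →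
      Continuous (fun x => f (y.pt k + A x) - f (y.pt k)) ∧
      HasFDerivAt (fun x => f (y.pt k + A x) - f (y.pt k)) (fderiv ℝ f (y.pt k) ∘L A) 0 :=
    fun {_} y f hf A hA => ⟨(hf.continuousOn.comp_continuous (by fun_prop) fun x => by
      show y.t + (A x).2.2.2 ∈ 𝔉.Q
      rw [hA, Prod.snd_zero, add_zero]; exact y.ht).sub continuous_const,
    (HasFDerivAt.comp (g := f) 0 (by
      rw [map_zero, add_zero]
      exact ((hf.contDiffAt ((Map77.isOpen_U h).mem_nhds (pt_mem y))).differentiableAt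
        (by simp)).hasFDerivAt) (A.hasFDerivAt.const_add _)).sub_const _⟩
  have ρ := rep_mulH (k := k + 1) (cb_aC (c := c) mi) (maps_aC h mi)
  obtain ⟨c1, d1⟩ := d y hf (sC' o r k y.t) fun _ => rfl
  obtain ⟨c2, d2⟩ := d y' hf' (sC' o' r k y.t ∘L 𝔉.F0.mulH (k + 1) _ _ (aC w c)) fun _ => rfl
  have q := (𝔉.F0.dense_toH (k + 1) (bd o).pC).equalizer c2
    ((LY n m k w c).continuous.comp c1) (funext fun u => ?_)
  · rw [eC_eq h mi (by omega)]
    exact DFunLike.congr_fun ((q ▸ d2).unique ((LY n m k w c).hasFDerivAt.comp 0 d1)) x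
  obtain ⟨z, h1, h2, h3⟩ := exists_add h hk y u
  obtain ⟨z', h1', h2', h3'⟩ := exists_add h hk y' ⟨_, RepT_mem ρ u⟩
  have z1 : z.z = y.z := (congrArg (·.2.2.1) h2).trans (add_zero _)
  have z2 : z'.z = y'.z := (congrArg (·.2.2.1) h2').trans (add_zero _)
  rw [ht] at h1' h2' h3'
  simp only [comp_apply, ContinuousLinearMap.comp_apply, RepT_toH ρ, ← h2, ← h2']
  refine H z z' h1 h1' z1 z2 (eq_of_th h mi (h1'.trans h1.symm) (fun x hx a => ?_) (fun x hx => ?_)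
    (by rw [z1, z2]; exact e.z))
  · have g := fun b => idx_mem (maps_f2 x _ (u.2.2.2 x)) b
    rw [h1, ← e.th h ht x hx a]
    simp only [Mod61.th, (h3 x).1, (h3' x).1, SC, f2_sm2, PiLp.add_apply, Map77.idx_apply, map_add,
      cF_apply (maps_f2 x _ (u.2.2.2 x)), ContinuousLinearMap.id_apply, map_sum, map_smul,
      ContinuousLinearMap.add_comp, ContinuousLinearMap.comp_add, ContinuousLinearMap.finsetSum_comp,
      ContinuousLinearMap.comp_finsetSum, ContinuousLinearMap.smul_comp,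
      ContinuousLinearMap.comp_smul, (mi.me x hx).cj_comp (g _)]
    abel
  · simp only [(h3 x).2, (h3' x).2, ← add_assoc, e.Φ' h x, SC, s2_sm2, ContinuousLinearMap.id_apply,
      cS_apply h (maps_s2 x _ (u.2.2.2 x))]
    simp only [← csL_apply, ← map_add]

theorem fr_nat {L : 𝔉.F0.H (k + 1) (bd o).pC →L[ℝ] 𝔉.F0.H k (bd o).pE}
    {L' : 𝔉.F0.H (k + 1) (bd o').pC →L[ℝ] 𝔉.F0.H k (bd o').pE} (hk : 3 ≤ k)
    (H : ∀ x, L' (eC h (e.mi h ht) c _ x) = eE h (e.mi h ht) c k (L x)) {d : ℤ}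
    (F : Fr (iH1 _ k o.Pg _ ∘L (bd o).RR 𝔉.F0.toPre (Fs 𝔉 y.t) k (uy y) + iH2 _ k o.Pg _ ∘L L) d) :
    Fr (iH1 _ k o'.Pg _ ∘L (bd o').RR 𝔉.F0.toPre (Fs 𝔉 y.t) k (uy y') + iH2 _ k o'.Pg _ ∘L L') d := by
  have mi := e.mi h ht
  refine (F.conj (eC h mi c _).symm (sumE (eG h mi k) (eE h mi c k))).congr fun v => ?_
  obtain ⟨v, rfl⟩ := (eC h mi c _).surjective v
  have e4 := DFunLike.congr_fun (row_nat h e ht (k := k)) v
  simp only [ContinuousLinearMap.comp_apply, ← eC_eq h mi (k := k + 1) (by omega)] at e4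
  simp only [ContinuousLinearMap.comp_apply, ContinuousLinearEquiv.coe_coe, _root_.add_apply,
    ContinuousLinearEquiv.symm_apply_apply, sumE_apply, H, e4]
  rfl

/-- **the index is constant on equivalence classes** -/
theorem idx_eqv' (hk : 4 ≤ k) {Al : (M → CL o.m.V o'.m.V) → Circle → Prop}
    {τ : T → PtX M ι lam r n m} (hn : NatP o o' Al τ) (al : Al w c) {f' : o'.C r k → o'.Y n m k}
    (hf' : RepF τ f') {d : ℤ} (H : Idx k τ y d) : Idx k τ y' d := by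
  obtain ⟨f, hf, -⟩ := id H
  have a := (e.mi h ht).actY h (n := n) (m := m) hk c
  rw [idx_iff h hk hf', TT, ht]
  refine fr_nat h e ht (by omega) (fun x => ?_) ((idx_iff h hk hf y).1 H)
  simp only [ContinuousLinearMap.comp_apply, ← sY_LY]
  exact congrArg _ (dir_nat h e ht (by omega) hf.1 hf'.1 (fun z z' h1 h2 _ _ e' => by
    rw [a.rep h hk hn (h2.trans h1.symm) al e' (hf.2 z) (hf'.2 z'),
      a.rep h hk hn ht al e (hf.2 y) (hf'.2 y'), map_sub]) x)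

/-- the linearised equations are natural -/
theorem ll_nat (hk : 6 ≤ k) (x : 𝔉.F0.H (k + 1) (bd o).pC) :
    (bd o').LL 𝔉.F0.toPre (Fs 𝔉 y.t) k (uy y') (eC h (e.mi h ht) c _ x) =
      eE h (e.mi h ht) c k ((bd o).LL 𝔉.F0.toPre (Fs 𝔉 y.t) k (uy y) x) := by
  have A := adj_rem h
  have a := (e.mi h ht).actY h (n := 0) (m := 0) (k := k) (by omega) c
  have N := Fam.Nat.natP h (τ := 𝔉.eq0 r 0 0)
    (fun t ht => natOn_eq0 h.B (h.G t ht) h.Om.2 h.sub) o o' fun _ _ => True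
  have q := congrArg (sY o' 0 0 k) (dir_nat h e ht (by omega) (A.sm_f0 (n := 0) (m := 0)) A.sm_f0
    (fun z z' h1 h2 h3 h4 e' => ?_) x)
  · have q' := A.fderiv_f0 (n := 0) (m := 0) hk y'
    rw [ht] at q'
    rwa [q', A.fderiv_f0 hk, sY_LY h (e.mi h ht), sY_jY, sY_jY] at q
  have iD : ∀ {f : M → o.m.V} {f' : M → o'.m.V}, (∀ x ∈ 𝔉.Om', f' x = cs o'.m.J c (w x (f x))) →
      ∀ x, 𝔉.Om'.indicator f' x = csL o'.m.J c (w x (𝔉.Om'.indicator f x)) := fun k x => by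
    by_cases hx : x ∈ 𝔉.Om' <;> simp [hx, k, csL_apply, cs_zero]
  have iC : ∀ {f : M → Fm (ι × ι) o.m.A} {f' : M → Fm (ι × ι) o'.m.A},
      (∀ x ∈ 𝔉.Om, ∀ s, f' x s = cj (w x) (f x s)) →
      ∀ x s, 𝔉.Om.indicator f' x s = cj (w x) (𝔉.Om.indicator f x s) := fun k x s => by
    by_cases hx : x ∈ 𝔉.Om <;> simp [hx, k]
  have b1 : bs z = bs y := by simp only [bs, h1, h3]
  have b2 : bs z' = bs y' := by simp only [bs, h2, h4, ht]
  obtain ⟨n1, n2, -⟩ := N z z' w c (h2.trans h1.symm) trivial e'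
  obtain ⟨n3, n4, -⟩ := N y y' w c ht trivial e
  refine Y_ext h (by omega) (funext fun x => ?_) (funext fun x => fm_ext fun s => ?_)
    (Subsingleton.elim _ _)
  · rw [a.D]
    simp only [Prod.fst_sub, val_sub, (A.val_f0 hk _).1]
    rw [b1, b2, sub_sub_sub_cancel_right, sub_sub_sub_cancel_right, Pi.sub_apply, Pi.sub_apply,
      ← csL_apply, map_sub, map_sub]
    exact congrArg₂ _ (iD n1 x) (iD n3 x)
  · rw [a.C]
    simp only [Prod.fst_sub, Prod.snd_sub, val_sub, (A.val_f0 hk _).2.1]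
    rw [b1, b2, sub_sub_sub_cancel_right, sub_sub_sub_cancel_right, Pi.sub_apply, Pi.sub_apply,
      PiLp.sub_apply, PiLp.sub_apply, map_sub]
    exact congrArg₂ _ (iC n2 x s) (iC n4 x s)

/-- **the gauge fixed linearisation is natural** -/
theorem ff_eqv (hk : 6 ≤ k) {d : ℤ} (F : Fr ((bd o).FF 𝔉.F0.toPre (Fs 𝔉 y.t) k (uy y)) d) :
    Fr ((bd o').FF 𝔉.F0.toPre (Fs 𝔉 y'.t) k (uy y')) d := by
  rw [ht]
  exact (fr_nat h e ht (by omega) (ll_nat h e ht hk) (F.congr fun x =>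
    (((adj_rem h).hy o y.ht).FF_eq (cb_uy h y) x).symm)).congr fun x =>
      ((adj_rem h).hy o' y.ht).FF_eq (cb_uy h y') x

end Crest.Agent.X212.Ixz30
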